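import Vale.Agent.P154.End.Semi.SemiData.C0
import Vale.Agent.P154.End.Semi.SemiData.C1
import Vale.Agent.P154.End.Semi.SemiData.C2
import Vale.Agent.P154.End.Semi.SemiData.C3
import Vale.Agent.P154.End.Semi.SemiData.C4
import Vale.Agent.P154.End.Semi.SemiData.C5
import Vale.Agent.P154.End.Semi.SemiData.C6
import Vale.Agent.P154.End.Semi.SemiData.C7
import Vale.Agent.P154.End.Semi.SemiData.C8
import Vale.Agent.P154.End.Semi.SemiData.C9
import Vale.Agent.P154.End.Semi.SemiData.C11
import Vale.Agent.P154.End.Semi.SemiData.C12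
import Vale.Agent.P154.End.Semi.SemiData.C13
import Vale.Agent.P154.End.Semi.SemiData.C14
import Vale.Agent.P154.End.Semi.SemiData.C15
import Vale.Agent.P154.End.Semi.SemiData.C16
import Vale.Agent.P154.End.Semi.SemiData.C17
import Vale.Agent.P154.End.Semi.FlowData.All
import Vale.Agent.P154.End.Semi.Assemble

/-! The templates of the flow certificate are valid, so the threshold holds on Poisson trees. -/

namespace Vale.Agent.P154.Q3.End.Semi

open Filter Topology

namespace SemiData

/-- The pointwise certificates. -/
def certs : List SemiCert :=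
  [c0, c1, c2, c3, c4, c5, c6, c7, c8, c9, c11, c12, c13, c14, c15, c16, c17]

theorem certs_check : ∀ s ∈ certs, s.check = true := by
  simp only [certs, List.forall_mem_cons, List.not_mem_nil, IsEmpty.forall_iff, and_true, implies_true]
  exact ⟨c0_check, c1_check, c2_check, c3_check, c4_check, c5_check, c6_check, c7_check, c8_check, c9_check, c11_check, c12_check, c13_check, c14_check, c15_check, c16_check, c17_check⟩

theorem valid : ∀ k < FlowData.T.length, (tpl FlowData.T k).Valid :=
  valid_of_scaled_certs certs_check (10 ^ 12) (by norm_num) (by rfl)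

end SemiData

/-- The threshold on Poisson trees for every mean and every eigenvalue. -/
theorem gw_iff_all {d lam : ℝ} (hd : 0 < d) (h0 : -1 / 2 ≤ lam) (h1 : lam ≤ 1) :
    (Tendsto (aPoisson 3 d lam) atTop (𝓝 0) ↔ d * lam ^ 2 ≤ 1) ∧
      (1 < d * lam ^ 2 → ∃ c > 0, ∀ n, c ≤ aPoisson 3 d lam n) :=
  gw_iff_of_excluded SemiData.valid FlowData.root hd h0 h1

end Vale.Agent.P154.Q3.End.Semi
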